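import Vale.Agent.P227.Defs

/-! # P227: even log-concave measures, `L_p` combinations, slabs -/

open MeasureTheory

namespace Vale.Agent.P227

/-- `φ` is an even log-concave density on `ℝⁿ`. -/
structure EvenLogConcave {n : ℕ} (φ : EuclideanSpace ℝ (Fin n) → ℝ) : Prop where
  nonneg : ∀ x, 0 ≤ φ x
  even : ∀ x, φ (-x) = φ x
  logConcave : ∀ (x y : EuclideanSpace ℝ (Fin n)) (s : ℝ), 0 ≤ s → s ≤ 1 →
    φ x ^ (1 - s) * φ y ^ s ≤ φ ((1 - s) • x + s • y)

/-- The measure with density `φ` with respect to Lebesgue measure. -/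
noncomputable def dens {n : ℕ} (φ : EuclideanSpace ℝ (Fin n) → ℝ) :
    Measure (EuclideanSpace ℝ (Fin n)) :=
  volume.withDensity (fun x => ENNReal.ofReal (φ x))

/-- The `L_p` combination `(1-t)K +_p tL`. -/
noncomputable def lpComb {n : ℕ} (p t : ℝ) (K L : Set (EuclideanSpace ℝ (Fin n))) :
    Set (EuclideanSpace ℝ (Fin n)) :=
  wulff (fun u => ((1 - t) * supportFn K u ^ p + t * supportFn L u ^ p) ^ (1 / p))

/-- The intersection of the slabs `|⟨x, ν_j⟩| ≤ exp (a_j)`. -/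
def slabs {n J : ℕ} (ν : Fin J → EuclideanSpace ℝ (Fin n)) (a : Fin J → ℝ) :
    Set (EuclideanSpace ℝ (Fin n)) := {x | ∀ j, |(inner ℝ x (ν j) : ℝ)| ≤ Real.exp (a j)}

end Vale.Agent.P227
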