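import Vale.Agent.P227.H880.Meas

/-! # P227: `L_p` forms for even log-concave measures -/

open MeasureTheory Set Metric Filter Topology
open scoped ENNReal NNReal Pointwise

namespace Vale.Agent.P227

namespace H880

variable {n : ℕ}

theorem dens_lt_top {φ : EV n → ℝ} (h : EvenLogConcave φ) {K : Set (EV n)}
    (hK : SymConvexBody K) : dens φ K < ⊤ := by
  rw [dens, withDensity_apply _ hK.isCompact.measurableSet]
  calc ∫⁻ x in K, ENNReal.ofReal (φ x) ≤ ∫⁻ _ in K, ENNReal.ofReal (φ 0) :=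
        lintegral_mono fun x => ENNReal.ofReal_le_ofReal (le_zero h x)
    _ = ENNReal.ofReal (φ 0) * volume K := by rw [setLIntegral_const]
    _ < ⊤ := ENNReal.mul_lt_top ENNReal.ofReal_lt_top hK.isCompact.measure_lt_top

theorem dens_smul {φ : EV n → ℝ} (h : EvenLogConcave φ) {A : Set (EV n)} (hA : MeasurableSet A)
    {c : ℝ} (h0 : 0 < c) (h1 : c ≤ 1) :
    ENNReal.ofReal (c ^ n) * dens φ A ≤ dens φ (c • A) := by
  have hcA : MeasurableSet (c • A) := hA.const_smul₀ c
  rw [dens_eq h hA, dens_eq h hcA]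
  have anti : ∀ A : Set (EV n), Antitone (fun r => volume (lev φ r ∩ A)) := by
    intro A a b hab
    apply measure_mono
    exact inter_subset_inter_left _ fun x hx => le_trans hab hx
  rw [← lintegral_const_mul _ (anti A).measurable]
  apply lintegral_mono
  intro r
  have e : volume (c • (lev φ r ∩ A)) = ENNReal.ofReal (c ^ n) * volume (lev φ r ∩ A) := by
    rw [Measure.addHaar_smul, finrank_euclideanSpace_fin, abs_of_pos (by positivity)]
  simp only []
  rw [← e]
  apply measure_mono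
  rintro _ ⟨x, hx, rfl⟩
  exact ⟨lev_smul h h0.le h1 hx.1, smul_mem_smul_set hx.2⟩

theorem smul_wulff {f g : EV n → ℝ} {c : ℝ} (hc : 0 < c) (h : ∀ u : EV n, ‖u‖ = 1 → c * f u ≤ g u) :
    c • wulff f ⊆ wulff g := by
  rintro _ ⟨x, hx, rfl⟩ u hu
  rw [real_inner_smul_left]
  exact (mul_le_mul_of_nonneg_left (hx u hu) hc.le).trans (h u hu)

theorem smul_body {f : EV n → ℝ} {K : Set (EV n)} (hK : IsCompact K) {c : ℝ} (hc : 0 < c)
    (h : ∀ u : EV n, ‖u‖ = 1 → c * supportFn K u ≤ f u) : c • K ⊆ wulff f := by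
  rintro _ ⟨x, hx, rfl⟩ u hu
  rw [real_inner_smul_left]
  exact (mul_le_mul_of_nonneg_left (inner_le_supportFn hK hx u) hc.le).trans (h u hu)

theorem rpow_np {n : ℕ} (hn : 0 < n) {p : ℝ} (hp : 0 < p) {S : ℝ} (hS : 0 ≤ S) :
    (S ^ (n / p)) ^ (p / n) = S := by
  have hn' : (0 : ℝ) < n := by exact_mod_cast hn
  rw [← Real.rpow_mul hS]
  have : (n : ℝ) / p * (p / n) = 1 := by field_simp
  rw [this, Real.rpow_one]

theorem ptwise {t p X Y h g : ℝ} (t0 : 0 < t) (t1 : t < 1) (hp : 0 < p) (hX : 0 < X)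
    (hY : 0 < Y) (hh : 0 ≤ h) (hg : 0 ≤ g) :
    ((((1 - t) * X + t * Y) / X) ^ (1 - t * Y / ((1 - t) * X + t * Y)) *
      (((1 - t) * X + t * Y) / Y) ^ (t * Y / ((1 - t) * X + t * Y))) ^ (1 / p) *
      (h ^ (1 - t * Y / ((1 - t) * X + t * Y)) * g ^ (t * Y / ((1 - t) * X + t * Y))) ≤
      ((1 - t) * h ^ p + t * g ^ p) ^ (1 / p) := by
  have t1' : 0 < 1 - t := by linarith
  set S : ℝ := (1 - t) * X + t * Y with hS
  have hS0 : 0 < S := by positivity
  set q : ℝ := t * Y / S with hq
  have hq0 : 0 ≤ q := by positivity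
  have hq1 : 1 - q = (1 - t) * X / S := by
    rw [hq, hS]; field_simp; ring
  have hq1' : 0 ≤ 1 - q := by rw [hq1]; positivity
  have e : ((1 - t) * h ^ p + t * g ^ p) = (1 - q) * (S / X * h ^ p) + q * (S / Y * g ^ p) := by
    rw [hq1, hq]; field_simp
  have key := Real.geom_mean_le_arith_mean2_weighted hq1' hq0
    (show 0 ≤ S / X * h ^ p by positivity) (show 0 ≤ S / Y * g ^ p by positivity) (by ring)
  rw [← e] at key
  have key2 := Real.rpow_le_rpow (by positivity) key (show 0 ≤ 1 / p by positivity)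
  refine le_trans (le_of_eq ?_) key2
  rw [Real.mul_rpow (by positivity) (by positivity), Real.mul_rpow (by positivity) (by positivity),
    Real.mul_rpow (by positivity) (by positivity), Real.mul_rpow (by positivity) (by positivity),
    Real.mul_rpow (by positivity) (by positivity), Real.mul_rpow (by positivity) (by positivity)]
  have a1 : ((h ^ p) ^ (1 - q)) ^ (1 / p) = h ^ (1 - q) := by
    rw [← Real.rpow_mul (by positivity), ← Real.rpow_mul hh]
    congr 1; field_simp
  have a2 : ((g ^ p) ^ q) ^ (1 / p) = g ^ q := by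
    rw [← Real.rpow_mul (by positivity), ← Real.rpow_mul hg]
    congr 1; field_simp
  rw [a1, a2]
  ring

/-- The `L_p` Brunn-Minkowski inequality for even log-concave measures. -/
theorem lp_bm_dens (hn : 0 < n) {φ : EV n → ℝ} (hφ : EvenLogConcave φ) {K L : Set (EV n)}
    (hK : SymConvexBody K) (hL : SymConvexBody L) {t : ℝ} (h0 : 0 ≤ t) (h1 : t ≤ 1) {p : ℝ}
    (hp : 0 < p) :
    ENNReal.ofReal (1 - t) * dens φ K ^ (p / n) + ENNReal.ofReal t * dens φ L ^ (p / n) ≤
      dens φ (lpComb p t K L) ^ (p / n) := by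
  have hn' : (0 : ℝ) < n := by exact_mod_cast hn
  have hpn : 0 < p / n := by positivity
  have hKn := fun u => sf_nonneg hK u
  have hLn := fun u => sf_nonneg hL u
  -- one body only
  have one : ∀ (M : Set (EV n)) (s : ℝ), SymConvexBody M → 0 < s → s ≤ 1 →
      (∀ u : EV n, s * supportFn M u ^ p ≤
        (1 - t) * supportFn K u ^ p + t * supportFn L u ^ p) →
      ENNReal.ofReal s * dens φ M ^ (p / n) ≤ dens φ (lpComb p t K L) ^ (p / n) := by
    intro M s hM hs hs1 hle
    have hc : 0 < s ^ (1 / p) := by positivity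
    have hc1 : s ^ (1 / p) ≤ 1 := Real.rpow_le_one hs.le hs1 (by positivity)
    have hsub : s ^ (1 / p) • M ⊆ lpComb p t K L := by
      apply smul_body hM.isCompact hc
      intro u _
      have hMn := sf_nonneg hM u
      have e : s ^ (1 / p) * supportFn M u = (s * supportFn M u ^ p) ^ (1 / p) := by
        rw [Real.mul_rpow hs.le (by positivity), ← Real.rpow_mul hMn, mul_one_div_cancel hp.ne',
          Real.rpow_one]
      rw [e]
      exact Real.rpow_le_rpow (by positivity) (hle u) (by positivity)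
    have h2 := (dens_smul hφ hM.isCompact.measurableSet hc hc1).trans (measure_mono hsub)
    have h3 := ENNReal.rpow_le_rpow h2 hpn.le
    rw [ENNReal.mul_rpow_of_nonneg _ _ hpn.le, ENNReal.ofReal_rpow_of_pos (by positivity)] at h3
    have e : ((s ^ (1 / p)) ^ n) ^ (p / n) = s := by
      rw [← Real.rpow_natCast, ← Real.rpow_mul hs.le, ← Real.rpow_mul hs.le]
      have : 1 / p * n * (p / n) = 1 := by field_simp
      rw [this, Real.rpow_one]
    rwa [e] at h3
  rcases h0.eq_or_lt with h0' | h0'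
  · subst h0'
    have := one K 1 hK one_pos le_rfl (fun u => by simp)
    simpa using this
  rcases h1.eq_or_lt with h1' | h1'
  · subst h1'
    have := one L 1 hL one_pos le_rfl (fun u => by simp)
    simpa using this
  have t1' : 0 < 1 - t := by linarith
  by_cases zK : dens φ K = 0
  · rw [zK, ENNReal.zero_rpow_of_pos hpn, mul_zero, zero_add]
    apply one L t hL h0' h1
    intro u
    have := Real.rpow_nonneg (hKn u) p
    nlinarith
  by_cases zL : dens φ L = 0
  · rw [zL, ENNReal.zero_rpow_of_pos hpn, mul_zero, add_zero]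
    apply one K (1 - t) hK t1' (by linarith)
    intro u
    have := Real.rpow_nonneg (hLn u) p
    nlinarith
  have fK := (dens_lt_top hφ hK).ne
  have fL := (dens_lt_top hφ hL).ne
  set a : ℝ := (dens φ K).toReal with ha
  set b : ℝ := (dens φ L).toReal with hb
  have ha0 : 0 < a := ENNReal.toReal_pos zK fK
  have hb0 : 0 < b := ENNReal.toReal_pos zL fL
  have eK : dens φ K = ENNReal.ofReal a := (ENNReal.ofReal_toReal fK).symm
  have eL : dens φ L = ENNReal.ofReal b := (ENNReal.ofReal_toReal fL).symm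
  set X : ℝ := a ^ (p / n) with hX
  set Y : ℝ := b ^ (p / n) with hY
  have hX0 : 0 < X := by positivity
  have hY0 : 0 < Y := by positivity
  set S : ℝ := (1 - t) * X + t * Y with hS
  have hS0 : 0 < S := by positivity
  set q : ℝ := t * Y / S with hq
  have hq0 : 0 ≤ q := by positivity
  have hq1 : 1 - q = (1 - t) * X / S := by
    rw [hq, hS]; field_simp; ring
  have hq1' : 0 ≤ 1 - q := by rw [hq1]; positivity
  set lam : ℝ := ((S / X) ^ (1 - q) * (S / Y) ^ q) ^ (1 / p) with hlam
  have hl0 : 0 < lam := by positivity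
  have hl1 : lam ≤ 1 := by
    apply Real.rpow_le_one (by positivity) _ (by positivity)
    refine (Real.geom_mean_le_arith_mean2_weighted hq1' hq0 (show 0 ≤ S / X by positivity)
      (show 0 ≤ S / Y by positivity) (by ring)).trans (le_of_eq ?_)
    rw [hq1, hq]; field_simp; ring
  have hsub : lam • logComb q K L ⊆ lpComb p t K L := by
    apply smul_wulff hl0
    intro u _
    exact ptwise h0' h1' hp hX0 hY0 (hKn u) (hLn u)
  have h2 := log_bm_dens hn hφ hK hL hq0 (by linarith : q ≤ 1)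
  have h3 := (dens_smul hφ (isClosed_wulff _).measurableSet (A := logComb q K L) hl0 hl1).trans
    (measure_mono hsub)
  have h4 : ENNReal.ofReal (lam ^ n) * (dens φ K ^ (1 - q) * dens φ L ^ q) ≤
      dens φ (lpComb p t K L) := le_trans (by gcongr) h3
  have e4 : ENNReal.ofReal (lam ^ n) * (dens φ K ^ (1 - q) * dens φ L ^ q) =
      ENNReal.ofReal (S ^ (n / p)) := by
    rw [eK, eL, ENNReal.ofReal_rpow_of_pos ha0, ENNReal.ofReal_rpow_of_pos hb0,
      ← ENNReal.ofReal_mul (by positivity), ← ENNReal.ofReal_mul (by positivity)]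
    congr 1
    have eX : a ^ (1 - q) = X ^ ((1 - q) * (n / p)) := by
      rw [hX, ← Real.rpow_mul ha0.le]
      congr 1; field_simp
    have eY : b ^ q = Y ^ (q * (n / p)) := by
      rw [hY, ← Real.rpow_mul hb0.le]
      congr 1; field_simp
    have e5 : lam ^ n = (S / X) ^ ((1 - q) * (n / p)) * (S / Y) ^ (q * (n / p)) := by
      rw [hlam, ← Real.rpow_natCast, ← Real.rpow_mul (by positivity),
        Real.mul_rpow (by positivity) (by positivity), ← Real.rpow_mul (by positivity),
        ← Real.rpow_mul (by positivity)]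
      congr 2 <;> ring
    rw [e5, eX, eY, Real.div_rpow hS0.le hX0.le, Real.div_rpow hS0.le hY0.le]
    have n1 : X ^ ((1 - q) * (n / p)) ≠ 0 := (Real.rpow_pos_of_pos hX0 _).ne'
    have n2 : Y ^ (q * (n / p)) ≠ 0 := (Real.rpow_pos_of_pos hY0 _).ne'
    calc S ^ ((1 - q) * (n / p)) / X ^ ((1 - q) * (n / p)) *
          (S ^ (q * (n / p)) / Y ^ (q * (n / p))) *
          (X ^ ((1 - q) * (n / p)) * Y ^ (q * (n / p)))
        = S ^ ((1 - q) * (n / p)) * S ^ (q * (n / p)) := by field_simp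
      _ = S ^ (n / p) := by
        rw [← Real.rpow_add hS0]
        congr 1; ring
  rw [e4] at h4
  have h5 := ENNReal.rpow_le_rpow h4 hpn.le
  rw [ENNReal.ofReal_rpow_of_pos (by positivity), rpow_np hn hp hS0.le] at h5
  refine le_trans (le_of_eq ?_) h5
  rw [eK, eL, ENNReal.ofReal_rpow_of_pos ha0, ENNReal.ofReal_rpow_of_pos hb0,
    ← ENNReal.ofReal_mul (by positivity), ← ENNReal.ofReal_mul (by positivity),
    ← ENNReal.ofReal_add (by positivity) (by positivity)]

theorem lpComb_one_subset {K L : Set (EV n)} (hK : SymConvexBody K) (hL : SymConvexBody L)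
    {t : ℝ} (h0 : 0 ≤ t) (h1 : t ≤ 1) : lpComb 1 t K L ⊆ (1 - t) • K + t • L := by
  apply wulff_subset_of_le (mink_convex hK.convex hL.convex _ _)
    (mink_compact hK.isCompact hL.isCompact _ _)
    (mink_nonempty ⟨0, hK.zero_mem⟩ ⟨0, hL.zero_mem⟩ _ _)
  intro u _
  have := supportFn_mink hK.isCompact hL.isCompact ⟨0, hK.zero_mem⟩
    ⟨0, hL.zero_mem⟩ (by linarith : 0 ≤ 1 - t) h0 u
  simpa using this

/-- dimensional Brunn-Minkowski inequality for even log-concave measures. -/
theorem dim_bm_dens (hn : 0 < n) {φ : EV n → ℝ} (hφ : EvenLogConcave φ) {K L : Set (EV n)}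
    (hK : SymConvexBody K) (hL : SymConvexBody L) {t : ℝ} (h0 : 0 ≤ t) (h1 : t ≤ 1) :
    ENNReal.ofReal (1 - t) * dens φ K ^ (1 / n : ℝ) + ENNReal.ofReal t * dens φ L ^ (1 / n : ℝ) ≤
      dens φ ((1 - t) • K + t • L) ^ (1 / n : ℝ) := by
  refine (lp_bm_dens hn hφ hK hL h0 h1 one_pos).trans ?_
  exact ENNReal.rpow_le_rpow (measure_mono (lpComb_one_subset hK hL h0 h1)) (by positivity)

theorem body_smul {K : Set (EV n)} (hK : SymConvexBody K) {c : ℝ} (hc : 0 < c) :
    SymConvexBody (c • K) := by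
  refine ⟨hK.convex.smul c, hK.isCompact.smul c, ?_, ?_⟩
  · rw [interior_smul₀ hc.ne']
    exact hK.nonempty_interior.smul_set
  · rintro _ ⟨x, hx, rfl⟩
    exact ⟨-x, hK.symm x hx, by simp⟩

/-- The (B)-property for even log-concave measures. -/
theorem b_dens (hn : 0 < n) {φ : EV n → ℝ} (hφ : EvenLogConcave φ) {K : Set (EV n)}
    (hK : SymConvexBody K) {t : ℝ} (h0 : 0 ≤ t) (h1 : t ≤ 1) (a b : ℝ) :
    dens φ (Real.exp a • K) ^ (1 - t) * dens φ (Real.exp b • K) ^ t ≤
      dens φ (Real.exp ((1 - t) * a + t * b) • K) := by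
  refine (log_bm_dens hn hφ (body_smul hK (Real.exp_pos a)) (body_smul hK (Real.exp_pos b))
    h0 h1).trans (measure_mono ?_)
  have hb := body_smul hK (Real.exp_pos ((1 - t) * a + t * b))
  apply wulff_subset_of_le hb.convex hb.isCompact ⟨0, hb.zero_mem⟩
  intro u _
  have hne : K.Nonempty := ⟨0, hK.zero_mem⟩
  have hu := sf_nonneg hK u
  rw [supportFn_smul hK.isCompact hne (Real.exp_pos _),
    supportFn_smul hK.isCompact hne (Real.exp_pos _),
    supportFn_smul hK.isCompact hne (Real.exp_pos _),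
    Real.mul_rpow (Real.exp_pos _).le hu, Real.mul_rpow (Real.exp_pos _).le hu]
  apply le_of_eq
  have e1 : supportFn K u ^ (1 - t) * supportFn K u ^ t = supportFn K u := by
    rcases hu.eq_or_lt with h | h
    · rcases h0.eq_or_lt with h0' | h0'
      · subst h0'; rw [← h]; simp
      · rw [← h, Real.zero_rpow h0'.ne']; simp
    · rw [← Real.rpow_add h]; simp
  have e2 : Real.exp a ^ (1 - t) * Real.exp b ^ t = Real.exp ((1 - t) * a + t * b) := by
    rw [← Real.exp_mul, ← Real.exp_mul, ← Real.exp_add]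
    congr 1; ring
  calc Real.exp a ^ (1 - t) * supportFn K u ^ (1 - t) * (Real.exp b ^ t * supportFn K u ^ t)
      = (Real.exp a ^ (1 - t) * Real.exp b ^ t) * (supportFn K u ^ (1 - t) * supportFn K u ^ t) := by
        ring
    _ = _ := by rw [e1, e2]

theorem body_slabs {K : Set (EV n)} (hK : SymConvexBody K) {J : ℕ} (ν : Fin J → EV n)
    (a : Fin J → ℝ) : SymConvexBody (K ∩ slabs ν a) := by
  have hcl : IsClosed (slabs ν a) := by
    have : slabs ν a = ⋂ j, {x | |(inner ℝ x (ν j) : ℝ)| ≤ Real.exp (a j)} := by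
      ext x; simp [slabs]
    rw [this]
    exact isClosed_iInter fun j => isClosed_le (by fun_prop) continuous_const
  have hcv : Convex ℝ (slabs ν a) := by
    intro x hx y hy c d hc hd hcd j
    have h1 := hx j
    have h2 := hy j
    rw [inner_add_left, real_inner_smul_left, real_inner_smul_left]
    calc |c * (inner ℝ x (ν j) : ℝ) + d * inner ℝ y (ν j)|
        ≤ |c * (inner ℝ x (ν j) : ℝ)| + |d * (inner ℝ y (ν j) : ℝ)| := abs_add_le _ _
      _ = c * |(inner ℝ x (ν j) : ℝ)| + d * |(inner ℝ y (ν j) : ℝ)| := by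
        rw [abs_mul, abs_mul, abs_of_nonneg hc, abs_of_nonneg hd]
      _ ≤ c * Real.exp (a j) + d * Real.exp (a j) := by gcongr
      _ = Real.exp (a j) := by rw [← add_mul, hcd, one_mul]
  refine ⟨hK.convex.inter hcv, hK.isCompact.inter_right hcl, ?_, ?_⟩
  · refine ⟨0, ?_⟩
    rw [interior_inter]
    refine ⟨hK.zero_mem_int, ?_⟩
    rw [mem_interior]
    refine ⟨⋂ j, {x | |(inner ℝ x (ν j) : ℝ)| < Real.exp (a j)}, ?_, ?_, ?_⟩
    · intro x hx j
      exact (mem_iInter.1 hx j).le
    · exact isOpen_iInter_of_finite fun j => isOpen_lt (by fun_prop) continuous_const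
    · refine mem_iInter.2 fun j => ?_
      simp [Real.exp_pos]
  · intro x hx
    refine ⟨hK.symm x hx.1, fun j => ?_⟩
    rw [inner_neg_left, abs_neg]
    exact hx.2 j

/-- multi-parameter (strong) (B)-property for even log-concave measures. -/
theorem slab_dens (hn : 0 < n) {φ : EV n → ℝ} (hφ : EvenLogConcave φ) {K : Set (EV n)}
    (hK : SymConvexBody K) {t : ℝ} (h0 : 0 ≤ t) (h1 : t ≤ 1) {J : ℕ} (ν : Fin J → EV n)
    (a b : Fin J → ℝ) :
    dens φ (K ∩ slabs ν a) ^ (1 - t) * dens φ (K ∩ slabs ν b) ^ t ≤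
      dens φ (K ∩ slabs ν (fun j => (1 - t) * a j + t * b j)) := by
  have ba := body_slabs hK ν a
  have bb := body_slabs hK ν b
  refine (log_bm_dens hn hφ ba bb h0 h1).trans (measure_mono ?_)
  intro x hx
  refine ⟨logComb_self hK h0 h1 (logComb_mono ba bb hK hK inter_subset_left inter_subset_left
    h0 h1 hx), fun j => ?_⟩
  by_cases hν : ν j = 0
  · rw [hν, inner_zero_right, abs_zero]; exact (Real.exp_pos _).le
  have hn0 : 0 < ‖ν j‖ := norm_pos_iff.2 hν
  have key : ∀ y : EV n, (∀ c, supportFn (K ∩ slabs ν c) (‖ν j‖⁻¹ • y) ≤ ‖ν j‖⁻¹ * Real.exp (c j)) →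
      ‖y‖ = ‖ν j‖ → (inner ℝ x y : ℝ) ≤ Real.exp ((1 - t) * a j + t * b j) := by
    intro y hy hyn
    have h2 := hx (‖ν j‖⁻¹ • y) (by
      rw [norm_smul, norm_inv, norm_norm, hyn, inv_mul_cancel₀ hn0.ne'])
    rw [inner_smul_right] at h2
    have h3 : supportFn (K ∩ slabs ν a) (‖ν j‖⁻¹ • y) ^ (1 - t) *
        supportFn (K ∩ slabs ν b) (‖ν j‖⁻¹ • y) ^ t ≤
        (‖ν j‖⁻¹ * Real.exp (a j)) ^ (1 - t) * (‖ν j‖⁻¹ * Real.exp (b j)) ^ t := by
      apply mul_le_mul
      · exact Real.rpow_le_rpow (sf_nonneg ba _) (hy a) (by linarith)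
      · exact Real.rpow_le_rpow (sf_nonneg bb _) (hy b) h0
      · exact Real.rpow_nonneg (sf_nonneg bb _) _
      · positivity
    have h4 : (‖ν j‖⁻¹ * Real.exp (a j)) ^ (1 - t) * (‖ν j‖⁻¹ * Real.exp (b j)) ^ t =
        ‖ν j‖⁻¹ * Real.exp ((1 - t) * a j + t * b j) := by
      rw [Real.mul_rpow (by positivity) (by positivity), Real.mul_rpow (by positivity)
        (by positivity), ← Real.exp_mul, ← Real.exp_mul]
      have e1 : (‖ν j‖⁻¹) ^ (1 - t) * (‖ν j‖⁻¹) ^ t = ‖ν j‖⁻¹ := by
        rw [← Real.rpow_add (by positivity)]; simp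
      calc (‖ν j‖⁻¹) ^ (1 - t) * Real.exp (a j * (1 - t)) *
            ((‖ν j‖⁻¹) ^ t * Real.exp (b j * t))
          = ((‖ν j‖⁻¹) ^ (1 - t) * (‖ν j‖⁻¹) ^ t) *
            (Real.exp (a j * (1 - t)) * Real.exp (b j * t)) := by ring
        _ = _ := by
          rw [e1, ← Real.exp_add]; congr 2; ring
    have h5 := h2.trans (h3.trans (le_of_eq h4))
    exact le_of_mul_le_mul_left h5 (by positivity)
  rw [abs_le']
  constructor
  · apply key (ν j) _ rfl
    intro c
    apply supportFn_le ⟨0, (body_slabs hK ν c).zero_mem⟩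
    intro z hz
    rw [inner_smul_right]
    exact mul_le_mul_of_nonneg_left ((le_abs_self _).trans (hz.2 j)) (by positivity)
  · rw [← inner_neg_right]
    apply key (-ν j) _ (norm_neg _)
    intro c
    apply supportFn_le ⟨0, (body_slabs hK ν c).zero_mem⟩
    intro z hz
    rw [inner_smul_right, inner_neg_right]
    exact mul_le_mul_of_nonneg_left ((neg_le_abs _).trans (hz.2 j)) (by positivity)

end H880

end Vale.Agent.P227
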