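import Vale.Agent.P227.H880.Defs
import Vale.Agent.P227.Bd3.B4

/-! # P227: even log-concave densities, the measure form of the logarithmic Brunn-Minkowski
inequality -/

open MeasureTheory Set Metric Filter Topology
open scoped ENNReal NNReal Pointwise

namespace Vale.Agent.P227

namespace H880

variable {n : ℕ}

/-- superlevel sets -/
def lev (φ : EV n → ℝ) (r : ℝ) : Set (EV n) := {x | r ≤ φ x}

theorem lev_comb {φ : EV n → ℝ} (h : EvenLogConcave φ) {r s t : ℝ} (hr : 0 < r) (hs : 0 < s)
    (h0 : 0 ≤ t) (h1 : t ≤ 1) {x y : EV n} (hx : x ∈ lev φ r) (hy : y ∈ lev φ s) :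
    (1 - t) • x + t • y ∈ lev φ (r ^ (1 - t) * s ^ t) := by
  refine le_trans ?_ (h.logConcave x y t h0 h1)
  have hx' : r ≤ φ x := hx
  have hy' : s ≤ φ y := hy
  have e1 : r ^ (1 - t) ≤ φ x ^ (1 - t) := Real.rpow_le_rpow hr.le hx' (by linarith)
  have e2 : s ^ t ≤ φ y ^ t := Real.rpow_le_rpow hs.le hy' h0
  exact mul_le_mul e1 e2 (by positivity) (Real.rpow_nonneg (h.nonneg x) _)

theorem lev_convex {φ : EV n → ℝ} (h : EvenLogConcave φ) (r : ℝ) : Convex ℝ (lev φ r) := by
  rcases le_or_gt r 0 with hr | hr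
  · have : lev φ r = univ := eq_univ_of_forall fun x => hr.trans (h.nonneg x)
    rw [this]; exact convex_univ
  intro x hx y hy a b ha hb hab
  have h1 := lev_comb h hr hr hb (by linarith) hx hy
  have e : r ^ (1 - b) * r ^ b = r := by
    rw [← Real.rpow_add hr]; simp
  rw [e] at h1
  have e2 : 1 - b = a := by linarith
  rwa [e2] at h1

theorem lev_neg {φ : EV n → ℝ} (h : EvenLogConcave φ) {r : ℝ} {x : EV n} (hx : x ∈ lev φ r) :
    -x ∈ lev φ r := by
  show r ≤ φ (-x)
  rw [h.even]; exact hx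

theorem le_zero {φ : EV n → ℝ} (h : EvenLogConcave φ) (x : EV n) : φ x ≤ φ 0 := by
  rcases (h.nonneg x).eq_or_lt with h0 | h0
  · rw [← h0]; exact h.nonneg 0
  have hx : x ∈ lev φ (φ x) := le_refl (φ x)
  have h1 := lev_comb h h0 h0 (t := 1 / 2) (by norm_num) (by norm_num) hx (lev_neg h hx)
  have e : φ x ^ (1 - (1 / 2 : ℝ)) * φ x ^ (1 / 2 : ℝ) = φ x := by
    rw [← Real.rpow_add h0]; norm_num
  rw [e] at h1
  have e2 : (1 - (1 / 2 : ℝ)) • x + (1 / 2 : ℝ) • (-x) = 0 := by
    rw [smul_neg, ← sub_eq_add_neg, ← sub_smul]; norm_num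
  rw [e2] at h1
  exact h1

theorem lev_smul {φ : EV n → ℝ} (h : EvenLogConcave φ) {r c : ℝ} (h0 : 0 ≤ c) (h1 : c ≤ 1)
    {x : EV n} (hx : x ∈ lev φ r) : c • x ∈ lev φ r := by
  have hc := lev_convex h r
  have h0' : (0 : EV n) ∈ lev φ r := (show r ≤ φ x from hx).trans (le_zero h x)
  have := hc hx h0' h0 (by linarith : 0 ≤ 1 - c) (by ring)
  simpa using this

theorem aemeas {φ : EV n → ℝ} (h : EvenLogConcave φ) : AEMeasurable φ volume := by
  apply NullMeasurable.aemeasurable
  refine @measurable_of_Ici ℝ (NullMeasurableSpace (EV n) volume) _ _ _ _ _ _ _ φ ?_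
  intro r
  exact (lev_convex h r).nullMeasurableSet volume

/-- layer cake -/
theorem dens_eq {φ : EV n → ℝ} (h : EvenLogConcave φ) {A : Set (EV n)} (hA : MeasurableSet A) :
    dens φ A = ∫⁻ r in Ioi (0 : ℝ), volume (lev φ r ∩ A) := by
  rw [dens, withDensity_apply _ hA, lintegral_eq_lintegral_meas_le (volume.restrict A)
    (Eventually.of_forall h.nonneg) (aemeas h).restrict]
  apply lintegral_congr
  intro r
  rw [Measure.restrict_apply' hA]
  rfl

theorem lint_exp (F : ℝ → ℝ≥0∞) :
    ∫⁻ r in Ioi (0 : ℝ), F r = ∫⁻ a, ENNReal.ofReal (Real.exp a) * F (Real.exp a) := by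
  have h := lintegral_image_eq_lintegral_abs_deriv_mul (s := univ) (f := Real.exp)
    (f' := Real.exp) MeasurableSet.univ (fun x _ => (Real.hasDerivAt_exp x).hasDerivWithinAt)
    (Real.exp_injective.injOn) F
  rw [image_univ, Real.range_exp, setLIntegral_univ] at h
  rw [h]
  apply lintegral_congr
  intro a
  rw [abs_of_pos (Real.exp_pos a)]

/-- one-dimensional multiplicative Prekopa-Leindler inequality for antitone functions. -/
theorem pl_mul {t : ℝ} (h0 : 0 < t) (h1 : t < 1) (F G H : ℝ → ℝ≥0∞) (hF : Antitone F)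
    (hG : Antitone G) (hH : Antitone H)
    (hFG : ∀ r s : ℝ, 0 < r → 0 < s → F r ^ (1 - t) * G s ^ t ≤ H (r ^ (1 - t) * s ^ t)) :
    (∫⁻ r in Ioi (0 : ℝ), F r) ^ (1 - t) * (∫⁻ r in Ioi (0 : ℝ), G r) ^ t ≤
      ∫⁻ r in Ioi (0 : ℝ), H r := by
  have hm : ∀ u : ℝ → ℝ≥0∞, Antitone u →
      Measurable (fun a : ℝ => ENNReal.ofReal (Real.exp a) * u (Real.exp a)) := by
    intro u hu
    exact (Real.measurable_exp.ennreal_ofReal).mul (hu.measurable.comp Real.measurable_exp)
  rw [lint_exp, lint_exp, lint_exp]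
  refine pl_one (s := 1 - t) (t := t) (by linarith) h0 (by ring) _ _ _ (hm F hF) (hm G hG)
    (hm H hH) ?_
  intro x y
  have e1 : ENNReal.ofReal (Real.exp x) ^ (1 - t) * ENNReal.ofReal (Real.exp y) ^ t =
      ENNReal.ofReal (Real.exp ((1 - t) * x + t * y)) := by
    rw [ENNReal.ofReal_rpow_of_pos (Real.exp_pos x), ENNReal.ofReal_rpow_of_pos (Real.exp_pos y),
      ← ENNReal.ofReal_mul (by positivity), ← Real.exp_mul, ← Real.exp_mul, ← Real.exp_add]
    congr 2; ring
  have e2 : Real.exp x ^ (1 - t) * Real.exp y ^ t = Real.exp ((1 - t) * x + t * y) := by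
    rw [← Real.exp_mul, ← Real.exp_mul, ← Real.exp_add]
    congr 1; ring
  have h2 := hFG _ _ (Real.exp_pos x) (Real.exp_pos y)
  rw [e2] at h2
  rw [ENNReal.mul_rpow_of_nonneg _ _ (by linarith : 0 ≤ 1 - t),
    ENNReal.mul_rpow_of_nonneg _ _ h0.le]
  calc ENNReal.ofReal (Real.exp x) ^ (1 - t) * F (Real.exp x) ^ (1 - t) *
        (ENNReal.ofReal (Real.exp y) ^ t * G (Real.exp y) ^ t)
      = (ENNReal.ofReal (Real.exp x) ^ (1 - t) * ENNReal.ofReal (Real.exp y) ^ t) *
        (F (Real.exp x) ^ (1 - t) * G (Real.exp y) ^ t) := by ring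
    _ ≤ _ := by rw [e1]; gcongr

/-! ### support functions and Wulff bodies -/

theorem supportFn_mono {A B : Set (EV n)} (hne : A.Nonempty) (hB : IsCompact B) (h : A ⊆ B)
    (u : EV n) : supportFn A u ≤ supportFn B u :=
  supportFn_le hne fun x hx => inner_le_supportFn hB (h hx) u

theorem wulff_mono {f g : EV n → ℝ} (h : ∀ u : EV n, ‖u‖ = 1 → f u ≤ g u) :
    wulff f ⊆ wulff g := fun _ hx u hu => (hx u hu).trans (h u hu)

theorem isClosed_wulff (f : EV n → ℝ) : IsClosed (wulff f) := by
  have : wulff f = ⋂ u : EV n, ⋂ (_ : ‖u‖ = 1), {x | inner ℝ x u ≤ f u} := by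
    ext x; simp [wulff]
  rw [this]
  refine isClosed_iInter fun u => isClosed_iInter fun _ => ?_
  exact isClosed_le (by fun_prop) continuous_const

/-- separation: the Wulff body of a function that is at most the support function of a compact
convex set is contained in the set. -/
theorem wulff_subset_of_le {C : Set (EV n)} (hC : Convex ℝ C) (hc : IsCompact C)
    (hne : C.Nonempty) {f : EV n → ℝ} (h : ∀ u : EV n, ‖u‖ = 1 → f u ≤ supportFn C u) :
    wulff f ⊆ C := by
  intro x hx
  by_contra hxC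
  obtain ⟨g, c, hg1, hg2⟩ := geometric_hahn_banach_closed_point hC hc.isClosed hxC
  set v : EV n := (InnerProductSpace.toDual ℝ (EV n)).symm g with hv
  have hgv : ∀ y : EV n, g y = inner ℝ y v := by
    intro y
    rw [real_inner_comm]
    exact (InnerProductSpace.toDual_symm_apply (x := y) (y := g)).symm
  obtain ⟨y0, hy0⟩ := hne
  have hv0 : v ≠ 0 := by
    intro h0
    have e1 := hg1 y0 hy0
    rw [hgv, h0, inner_zero_right] at e1
    rw [hgv, h0, inner_zero_right] at hg2
    linarith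
  have hn : 0 < ‖v‖ := norm_pos_iff.2 hv0
  set u : EV n := ‖v‖⁻¹ • v with hu
  have hu1 : ‖u‖ = 1 := by
    rw [hu, norm_smul, norm_inv, norm_norm, inv_mul_cancel₀ hn.ne']
  have h1 : supportFn C u ≤ ‖v‖⁻¹ * c := by
    apply supportFn_le ⟨y0, hy0⟩
    intro y hy
    rw [hu, inner_smul_right]
    have := (hg1 y hy).le
    rw [hgv] at this
    exact mul_le_mul_of_nonneg_left this (by positivity)
  have h2 : (inner ℝ x u : ℝ) ≤ ‖v‖⁻¹ * c := (hx u hu1).trans ((h u hu1).trans h1)
  rw [hu, inner_smul_right, ← hgv] at h2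
  have h3 : ‖v‖⁻¹ * c < ‖v‖⁻¹ * g x := mul_lt_mul_of_pos_left hg2 (by positivity)
  linarith

theorem mink_convex {K L : Set (EV n)} (hK : Convex ℝ K) (hL : Convex ℝ L) (a b : ℝ) :
    Convex ℝ (a • K + b • L) := (hK.smul a).add (hL.smul b)

theorem mink_compact {K L : Set (EV n)} (hK : IsCompact K) (hL : IsCompact L) (a b : ℝ) :
    IsCompact (a • K + b • L) := (hK.smul a).add (hL.smul b)

theorem mink_nonempty {K L : Set (EV n)} (hK : K.Nonempty) (hL : L.Nonempty) (a b : ℝ) :
    (a • K + b • L).Nonempty := (hK.smul_set).add (hL.smul_set)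

theorem supportFn_mink {K L : Set (EV n)} (hK : IsCompact K) (hL : IsCompact L)
    (nK : K.Nonempty) (nL : L.Nonempty) {a b : ℝ} (ha : 0 ≤ a) (hb : 0 ≤ b) (u : EV n) :
    a * supportFn K u + b * supportFn L u ≤ supportFn (a • K + b • L) u := by
  have hc := mink_compact hK hL a b
  have key : ∀ x ∈ K, ∀ y ∈ L, a * (inner ℝ x u : ℝ) + b * inner ℝ y u ≤
      supportFn (a • K + b • L) u := by
    intro x hx y hy
    have := inner_le_supportFn hc (x := a • x + b • y)
      (add_mem_add (smul_mem_smul_set hx) (smul_mem_smul_set hy)) u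
    rwa [inner_add_left, real_inner_smul_left, real_inner_smul_left] at this
  rcases ha.eq_or_lt with ha0 | ha0
  · subst ha0
    rcases hb.eq_or_lt with hb0 | hb0
    · subst hb0
      obtain ⟨x, hx⟩ := nK
      obtain ⟨y, hy⟩ := nL
      simpa using key x hx y hy
    · have : supportFn L u ≤ b⁻¹ * supportFn ((0 : ℝ) • K + b • L) u := by
        apply supportFn_le nL
        intro y hy
        obtain ⟨x, hx⟩ := nK
        have := key x hx y hy
        rw [zero_mul, zero_add] at this
        rw [inv_mul_eq_div, le_div_iff₀ hb0, mul_comm]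
        exact this
      rw [inv_mul_eq_div, le_div_iff₀ hb0] at this
      linarith
  · have h1 : ∀ y ∈ L, supportFn K u ≤ a⁻¹ * (supportFn (a • K + b • L) u - b * inner ℝ y u) := by
      intro y hy
      apply supportFn_le nK
      intro x hx
      have := key x hx y hy
      rw [inv_mul_eq_div, le_div_iff₀ ha0]
      linarith
    rcases hb.eq_or_lt with hb0 | hb0
    · subst hb0
      obtain ⟨y, hy⟩ := nL
      have := h1 y hy
      rw [inv_mul_eq_div, le_div_iff₀ ha0] at this
      linarith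
    · have : supportFn L u ≤ b⁻¹ * (supportFn (a • K + b • L) u - a * supportFn K u) := by
        apply supportFn_le nL
        intro y hy
        have := h1 y hy
        rw [inv_mul_eq_div, le_div_iff₀ ha0] at this
        rw [inv_mul_eq_div, le_div_iff₀ hb0]
        linarith
      rw [inv_mul_eq_div, le_div_iff₀ hb0] at this
      linarith

theorem supportFn_smul {K : Set (EV n)} (hK : IsCompact K) (nK : K.Nonempty) {c : ℝ}
    (hc : 0 < c) (u : EV n) : supportFn (c • K) u = c * supportFn K u := by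
  apply le_antisymm
  · apply supportFn_le (nK.smul_set)
    rintro _ ⟨x, hx, rfl⟩
    simp only [real_inner_smul_left]
    exact mul_le_mul_of_nonneg_left (inner_le_supportFn hK hx u) hc.le
  · have : supportFn K u ≤ c⁻¹ * supportFn (c • K) u := by
      apply supportFn_le nK
      intro x hx
      have := inner_le_supportFn (hK.smul c) (smul_mem_smul_set hx (a := c)) u
      rw [real_inner_smul_left] at this
      rw [inv_mul_eq_div, le_div_iff₀ hc]
      linarith
    rw [inv_mul_eq_div, le_div_iff₀ hc] at this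
    linarith

theorem subset_wulff {K : Set (EV n)} (hK : IsCompact K) {f : EV n → ℝ}
    (h : ∀ u : EV n, ‖u‖ = 1 → supportFn K u ≤ f u) : K ⊆ wulff f :=
  fun _ hx u hu => (inner_le_supportFn hK hx u).trans (h u hu)

theorem sf_nonneg {K : Set (EV n)} (hK : SymConvexBody K) (u : EV n) : 0 ≤ supportFn K u := by
  have := inner_le_supportFn hK.isCompact hK.zero_mem u
  rwa [inner_zero_left] at this

theorem logComb_mono {K L K' L' : Set (EV n)} (hK : SymConvexBody K) (hL : SymConvexBody L)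
    (hK' : SymConvexBody K') (hL' : SymConvexBody L') (h1 : K ⊆ K') (h2 : L ⊆ L') {t : ℝ}
    (t0 : 0 ≤ t) (t1 : t ≤ 1) : logComb t K L ⊆ logComb t K' L' := by
  apply wulff_mono
  intro u _
  apply mul_le_mul
  · exact Real.rpow_le_rpow (sf_nonneg hK u)
      (supportFn_mono ⟨0, hK.zero_mem⟩ hK'.isCompact h1 u) (by linarith)
  · exact Real.rpow_le_rpow (sf_nonneg hL u)
      (supportFn_mono ⟨0, hL.zero_mem⟩ hL'.isCompact h2 u) t0
  · exact Real.rpow_nonneg (sf_nonneg hL u) _
  · exact Real.rpow_nonneg (sf_nonneg hK' u) _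

theorem logComb_subset_mink {K L : Set (EV n)} (hK : SymConvexBody K) (hL : SymConvexBody L)
    {t : ℝ} (t0 : 0 ≤ t) (t1 : t ≤ 1) : logComb t K L ⊆ (1 - t) • K + t • L := by
  apply wulff_subset_of_le (mink_convex hK.convex hL.convex _ _)
    (mink_compact hK.isCompact hL.isCompact _ _)
    (mink_nonempty ⟨0, hK.zero_mem⟩ ⟨0, hL.zero_mem⟩ _ _)
  intro u _
  refine le_trans ?_ (supportFn_mink hK.isCompact hL.isCompact ⟨0, hK.zero_mem⟩
    ⟨0, hL.zero_mem⟩ (by linarith : 0 ≤ 1 - t) t0 u)
  exact Real.geom_mean_le_arith_mean2_weighted (by linarith) t0 (sf_nonneg hK u) (sf_nonneg hL u)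
    (by ring)

theorem logComb_self {K : Set (EV n)} (hK : SymConvexBody K) {t : ℝ} (t0 : 0 ≤ t) (t1 : t ≤ 1) :
    logComb t K K ⊆ K := by
  refine (logComb_subset_mink hK hK t0 t1).trans ?_
  rintro _ ⟨_, ⟨x, hx, rfl⟩, _, ⟨y, hy, rfl⟩, rfl⟩
  exact hK.convex hx hy (by linarith) t0 (by ring)

/-- closure of a convex symmetric set of positive measure inside a body. -/
theorem body_closure {K P : Set (EV n)} (hK : SymConvexBody K) (hP : Convex ℝ P)
    (hPs : ∀ x ∈ P, -x ∈ P) (hpos : volume (P ∩ K) ≠ 0) :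
    SymConvexBody (closure (P ∩ K)) := by
  have hcv : Convex ℝ (P ∩ K) := hP.inter hK.convex
  refine ⟨hcv.closure, ?_, ?_, ?_⟩
  · exact hK.isCompact.of_isClosed_subset isClosed_closure
      (closure_minimal inter_subset_right hK.isCompact.isClosed)
  · by_contra hne
    rw [not_nonempty_iff_eq_empty] at hne
    apply hpos
    have h1 : P ∩ K ⊆ frontier (P ∩ K) := by
      intro x hx
      refine ⟨subset_closure hx, fun hi => ?_⟩
      have : x ∈ interior (closure (P ∩ K)) := interior_mono subset_closure hi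
      rw [hne] at this
      exact this
    exact measure_mono_null h1 (hcv.addHaar_frontier volume)
  · intro x hx
    have hs : ∀ y ∈ P ∩ K, -y ∈ P ∩ K := fun y hy => ⟨hPs y hy.1, hK.symm y hy.2⟩
    exact map_mem_closure continuous_neg hx hs

theorem q1_enn (hn : 0 < n) {K L : Set (EV n)} (hK : SymConvexBody K) (hL : SymConvexBody L)
    {t : ℝ} (h0 : 0 ≤ t) (h1 : t ≤ 1) :
    volume K ^ (1 - t) * volume L ^ t ≤ volume (logComb t K L) := by
  have h := Vale.Agent.P227.Int899.q1 n K L t hn hK hL h0 h1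
  have fK : volume K ≠ ⊤ := hK.isCompact.measure_lt_top.ne
  have fL : volume L ≠ ⊤ := hL.isCompact.measure_lt_top.ne
  calc volume K ^ (1 - t) * volume L ^ t
      = ENNReal.ofReal ((volume K).toReal ^ (1 - t) * (volume L).toReal ^ t) := by
        rw [ENNReal.ofReal_mul (by positivity),
          ← ENNReal.ofReal_rpow_of_nonneg ENNReal.toReal_nonneg (by linarith),
          ← ENNReal.ofReal_rpow_of_nonneg ENNReal.toReal_nonneg h0,
          ENNReal.ofReal_toReal fK, ENNReal.ofReal_toReal fL]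
    _ ≤ ENNReal.ofReal ((volume (logComb t K L)).toReal) := ENNReal.ofReal_le_ofReal h
    _ ≤ volume (logComb t K L) := ENNReal.ofReal_toReal_le

/-- logarithmic Brunn-Minkowski for intersections with convex symmetric sets -/
theorem q1_inter (hn : 0 < n) {K L P Q R : Set (EV n)} (hK : SymConvexBody K)
    (hL : SymConvexBody L) {t : ℝ} (h0 : 0 < t) (h1 : t < 1)
    (hP : Convex ℝ P) (hPs : ∀ x ∈ P, -x ∈ P) (hQ : Convex ℝ Q) (hQs : ∀ x ∈ Q, -x ∈ Q)
    (hR : Convex ℝ R) (hPQ : ∀ x ∈ P, ∀ y ∈ Q, (1 - t) • x + t • y ∈ R) :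
    volume (P ∩ K) ^ (1 - t) * volume (Q ∩ L) ^ t ≤ volume (R ∩ logComb t K L) := by
  by_cases zP : volume (P ∩ K) = 0
  · rw [zP, ENNReal.zero_rpow_of_pos (by linarith)]; simp
  by_cases zQ : volume (Q ∩ L) = 0
  · rw [zQ, ENNReal.zero_rpow_of_pos h0]; simp
  have b1 := body_closure hK hP hPs zP
  have b2 := body_closure hL hQ hQs zQ
  have s1 : closure (P ∩ K) ⊆ K := closure_minimal inter_subset_right hK.isCompact.isClosed
  have s2 : closure (Q ∩ L) ⊆ L := closure_minimal inter_subset_right hL.isCompact.isClosed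
  have m1 := logComb_mono b1 b2 hK hL s1 s2 h0.le h1.le
  have m2 : logComb t (closure (P ∩ K)) (closure (Q ∩ L)) ⊆ closure R := by
    refine (logComb_subset_mink b1 b2 h0.le h1.le).trans ?_
    rintro _ ⟨_, ⟨x, hx, rfl⟩, _, ⟨y, hy, rfl⟩, rfl⟩
    have hc : Continuous (fun p : EV n × EV n => (1 - t) • p.1 + t • p.2) := by fun_prop
    have hxy : (x, y) ∈ closure ((P ∩ K) ×ˢ (Q ∩ L)) := by
      rw [closure_prod_eq]; exact ⟨hx, hy⟩
    exact map_mem_closure (f := fun p : EV n × EV n => (1 - t) • p.1 + t • p.2) hc hxy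
      fun p hp => hPQ _ hp.1.1 _ hp.2.1
  calc volume (P ∩ K) ^ (1 - t) * volume (Q ∩ L) ^ t
      ≤ volume (closure (P ∩ K)) ^ (1 - t) * volume (closure (Q ∩ L)) ^ t := by
        apply mul_le_mul'
        · exact ENNReal.rpow_le_rpow (measure_mono subset_closure) (by linarith)
        · exact ENNReal.rpow_le_rpow (measure_mono subset_closure) h0.le
    _ ≤ volume (logComb t (closure (P ∩ K)) (closure (Q ∩ L))) := q1_enn hn b1 b2 h0.le h1.le
    _ ≤ volume ((R ∩ logComb t K L) ∪ frontier R) := by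
        apply measure_mono
        intro x hx
        by_cases hxR : x ∈ R
        · exact Or.inl ⟨hxR, m1 hx⟩
        · exact Or.inr ⟨m2 hx, fun hi => hxR (interior_subset hi)⟩
    _ ≤ volume (R ∩ logComb t K L) + volume (frontier R) := measure_union_le _ _
    _ = volume (R ∩ logComb t K L) := by rw [hR.addHaar_frontier volume, add_zero]

/-- **Logarithmic Brunn-Minkowski for even log-concave measures.** -/
theorem log_bm_dens (hn : 0 < n) {φ : EV n → ℝ} (hφ : EvenLogConcave φ) {K L : Set (EV n)}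
    (hK : SymConvexBody K) (hL : SymConvexBody L) {t : ℝ} (h0 : 0 ≤ t) (h1 : t ≤ 1) :
    dens φ K ^ (1 - t) * dens φ L ^ t ≤ dens φ (logComb t K L) := by
  rcases h0.eq_or_lt with h0' | h0'
  · subst h0'
    simp only [sub_zero, ENNReal.rpow_one, ENNReal.rpow_zero, mul_one]
    apply measure_mono
    apply subset_wulff hK.isCompact
    intro u _
    simp
  rcases h1.eq_or_lt with h1' | h1'
  · subst h1'
    simp only [sub_self, ENNReal.rpow_one, ENNReal.rpow_zero, one_mul]
    apply measure_mono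
    apply subset_wulff hL.isCompact
    intro u _
    simp
  rw [dens_eq hφ hK.isCompact.measurableSet, dens_eq hφ hL.isCompact.measurableSet,
    dens_eq hφ (isClosed_wulff _).measurableSet (A := logComb t K L)]
  have anti : ∀ A : Set (EV n), Antitone (fun r => volume (lev φ r ∩ A)) := by
    intro A a b hab
    apply measure_mono
    exact inter_subset_inter_left _ fun x hx => le_trans hab hx
  refine pl_mul h0' h1' _ _ _ (anti K) (anti L) (anti _) ?_
  intro r s hr hs
  exact q1_inter hn hK hL h0' h1' (lev_convex hφ r) (fun _ => lev_neg hφ) (lev_convex hφ s)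
    (fun _ => lev_neg hφ) (lev_convex hφ _) (fun x hx y hy => lev_comb hφ hr hs h0 h1 hx hy)

end H880

end Vale.Agent.P227
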